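import Vale.Agent.P014P.Pos
import Vale.Agent.P014T.Z.All
import Vale.Agent.P014T.Nv.All
import Vale.Agent.P004M.All

/-! # P014P: the closed form -/

namespace Vale.Agent.P014P

/-- **`L(E, 1) > 0` in analytic rank zero, `L'(E, 1) > 0` in analytic rank one** -/
theorem pos_all : POS := pos P004M.modular P014T.Z.gzx_all P014T.Nv.nvd_all

end Vale.Agent.P014P
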