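import Vale.Agent.P014T.Gx.One

/-! # P014P: the Petersson products are positive; `L(1) ≥ 0` for the twists -/

set_option autoImplicit false
set_option linter.all false

open Complex UpperHalfPlane MeasureTheory
open scoped Real ComplexConjugate ComplexOrder

noncomputable section

namespace Vale.Agent.P014P

open P004N (RN)
open P004Z P004Z.Lf P004Z.Gl P014T.Gx

theorem mc_nn (x : ℂ) : 0 ≤ x * conj x := by
  rw [mul_conj]
  exact zero_le_real.2 (normSq_nonneg x)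

theorem nn_of {c x : ℂ} (hc : 0 < c) (h : 0 ≤ c * x) : 0 ≤ x := by
  obtain ⟨r, rfl⟩ : ∃ r : ℝ, c = r := ⟨_, (eq_re_of_ofReal_le hc.le)⟩
  have := mul_nonneg (zero_le_real.2 (inv_nonneg.2 (zero_le_real.1 hc.le))) h
  rwa [ofReal_inv, inv_mul_cancel_left₀ hc.ne'] at this

theorem int_nn {f : ℂ → ℂ} (h : ∀ z ∈ FD, 0 ≤ f z) : 0 ≤ ∫ z in FD, f z :=
  integral_nonneg_of_ae (ae_restrict_of_forall_mem meas_FD h)

theorem B_nn {N : ℕ} [NeZero N] (x : Cf N) : 0 ≤ B x x :=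
  int_nn fun τ h => mul_nonneg (Finset.sum_nonneg fun r _ => mc_nn _)
    (zero_le_real.2 (Real.rpow_nonneg h.2.2.le _))

theorem pet2_nn (N : ℕ) (G : ℍ → ℂ) : 0 ≤ pet2 N G G :=
  finsum_nonneg fun q => int_nn fun z _ => by
    rw [petersson, mul_comm (conj _), ← ofReal_pow, ← ofReal_zpow, div_eq_mul_inv, ← ofReal_inv]
    exact mul_nonneg (mul_nonneg (mc_nn _) (zero_le_real.2 (zpow_nonneg (im_pos _).le _)))
      (zero_le_real.2 (by positivity))

theorem pet2_pos {N : ℕ} [NeZero N] {G : ℍ → ℂ} {a : ℕ → ℤ} (h : RN N G a) : 0 < pet2 N G G :=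
  (pet2_nn N G).lt_of_ne' (pet2_ne h)

/-- the central values of the twists by the discriminants `-d` -/
theorem tw_nn {N : ℕ} [NeZero N] {d : ℕ} {ρ : ZMod (2 * N)} {G : ℍ → ℂ} {a : ℕ → ℤ}
    (h : Du1 N d ρ) (hG : RN N G a) : 0 ≤ ∫ y in Set.Ioi (0 : ℝ), tw a d (Complex.I * y) := by
  have n0 := NeZero.pos N
  have d0 := h.ok.odd.pos
  have k := B_nn (sn d ρ G)
  rw [sn_B1 h hG (by positivity) (sn_s1 h hG.s2) (sn_eig1 h hG), h.cS, sn_co1 h hG.s2 hG.qe,
    ← mul_assoc, mul_comm] at k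
  refine nn_of ?_ (nn_of (pet2_pos hG) k)
  have : (0 : ℝ) < 4 * N * √(d : ℝ) * (√(N : ℝ) * d) := by positivity
  exact_mod_cast this

end Vale.Agent.P014P
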