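import Vale.Agent.P014P.Nn
import Vale.Agent.P014T.Z.Glue
import Vale.Agent.P014T.Z.Wn
import Vale.Agent.P014T.Z.Dv
import Vale.Agent.P014T.Dg.Pz
import Vale.Agent.P014T.Ht.Can
import Vale.Agent.P014T.Ht.Wmw
import Vale.Agent.P014T.Nv.Nv
import Vale.Agent.P004Z.Fin.Int

/-! # P014P: the central derivative is not negative -/

set_option autoImplicit false
set_option linter.all false

open Complex UpperHalfPlane CongruenceSubgroup
open scoped Real ComplexOrder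

noncomputable section

namespace Vale.Agent.P014P

open P004N (RN ALw)
open P004Z P014T P014T.Z

variable {N d : ℕ} {G : ℍ → ℂ} {a : ℕ → ℤ} {β : ℤ}

theorem l0_nn (rn : RN N G a) (hg : Hg N d β) : 0 ≤ L0 a d := by
  have : NeZero N := ⟨rn.pos.ne'⟩
  obtain ⟨p, k, -⟩ := exd N d 1 β rn.pos hg one_ne_zero
  exact tw_nn (Gu.du k) rn

theorem l1_nn (gz : GZX) (nv : Nv.NVD) (rn : RN N G a) (w : ALw N N G 1) (v : Van1 a 1) :
    0 ≤ L1 a := by
  have : NeZero N := ⟨rn.pos.ne'⟩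
  obtain ⟨d, hg, -, -, l0⟩ := nv N G a rn w 1 0 one_ne_zero
  obtain ⟨D⟩ := Ar.unf EF.par N G a rn
  obtain ⟨V, pl⟩ := Ar.ex_plc P004Z.Fin.ext
  obtain ⟨s₀, hs⟩ := (divs1 (N := N) d (1 : ℤ)).2.2.2 (Gamma0 N) inferInstance le_rfl
  obtain ⟨c, c0, hc⟩ := Dg.ex_cov D.par.lat
  obtain ⟨y, -, -, e⟩ := gz N G a D d 1 s₀ c V rn w v hg hs hc pl
  have y0 := Cn.hh_nonneg (Gl.pl_vq pl) (Wm.hD_Qb D.par.disc) y
  have d0 : 0 < d := by have := hg.m8; omega
  refine nn_of (c := (π ^ 2 * √d : ℝ) * L0 a d) (mul_pos (zero_lt_real.2 (by positivity))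
    ((l0_nn rn hg).lt_of_ne' l0)) ((zero_le_real.2 (?_ : _ ≤ 2 * D.w ^ 2 * c * _)).trans_eq
      (e.trans ?_))
  · positivity
  · push_cast
    ring

/-- **the central derivative is positive in rank one** -/
theorem m1_nn (gz : GZX) (nv : Nv.NVD) (rn : RN N G a) (z : An.M0 (fun n => (a n : ℂ)) = 0)
    (z' : An.M1 (fun n => (a n : ℂ)) ≠ 0) : 0 ≤ An.M1 fun n => (a n : ℂ) := by
  obtain ⟨ε, -, w⟩ := Nv.ex_al rn
  obtain rfl := (An.sign rn.pos (Lk.rn_gd rn) rn.qe w).2 z z'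
  have e0 := Nv.M0_tw a 1
  have e1 := Nv.M1_tw a 1
  simp only [jacobiSym.one_right, mul_one] at e0 e1
  rw [e1]
  exact mul_nonneg (by exact_mod_cast Real.two_pi_pos.le)
    (l1_nn gz nv rn w ((mul_eq_zero.1 (e0 ▸ z)).resolve_left Nv.p2))

end Vale.Agent.P014P
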