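import Vale.Agent.P014P.Zero
import Vale.Agent.P014P.One

/-! # P014P: the leading term is positive in analytic rank at most one -/

set_option autoImplicit false
set_option linter.all false

open scoped ComplexOrder

noncomputable section

namespace Vale.Agent.P014P

open P004N (IsEll cE cE_ldr)
open P014 P014T P014T.Lk

/-- **the target** -/
def POS : Prop := ∀ (E : WeierstrassCurve ℚ) [E.IsElliptic] L, IsEll E L → ∀ r : ℕ, r ≤ 1 →
  analyticOrderAt L 1 = r → ∃ x : ℝ, 0 < x ∧ iteratedDeriv r L 1 = x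

theorem pos (md : MD) (gz : Z.GZX) (nv : Nv.NVD) : POS := by
  intro E _ L hL r r1 o
  obtain ⟨A, B, u, s, t, v, hm⟩ := Sm.ex_md E
  obtain ⟨N, G, a, -, S, h, -, -, -, k, -⟩ := mod md hm
  obtain ⟨v0, v1, v2, v3⟩ := val h k hL
  have c1 : (0 : ℂ) < (∏ p ∈ S.primeFactors, P1 (cE E) p : ℝ) := Complex.zero_lt_real.2
    (Finset.prod_pos fun p m => have := Nat.prime_of_mem_primeFactors m
      P1_pos (cE_ldr E) this (P004N.cE_le E this))
  have c2 : (0 : ℂ) ≤ (∏ p ∈ S.primeFactors, P1 (fun n => (a n : ℝ)) p : ℝ) :=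
    Complex.zero_le_real.2 (Finset.prod_pos fun p m => have := Nat.prime_of_mem_primeFactors m
      P1_pos (rn_ldr h) this (rn_le h this)).le
  have n := ((analyticOrderAt_eq_nat_iff_iteratedDeriv_eq_zero (hL.1 1 (by simp))).1 o).2
  have : 0 ≤ iteratedDeriv r L 1 := by
    interval_cases r
    · rw [iteratedDeriv_zero]
      exact nn_of c1 (v2 ▸ mul_nonneg c2 (m0_nn h))
    · obtain ⟨z, z'⟩ := v1.1 o
      rw [iteratedDeriv_one]
      exact nn_of c1 (v3 z ▸ mul_nonneg c2 (m1_nn gz nv h z z'))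
  have e := Complex.eq_re_of_ofReal_le this
  exact ⟨_, Complex.zero_lt_real.1 (e ▸ this.lt_of_ne' n), e⟩

/-- **the quotient of the two sides is positive** -/
theorem POS.rho (h : POS) {E : WeierstrassCurve ℚ} [E.IsElliptic] {L : ℂ → ℂ} (hL : IsEll E L)
    {r : ℕ} (r1 : r ≤ 1) (o : analyticOrderAt L 1 = r) {P : Fin r → E.toAffine.Point}
    (b : IsBasisModTorsion E P) {ρ : ℚ} {s : ℕ}
    (e : iteratedDeriv r L 1 / (r.factorial : ℂ) = (ρ : ℂ) * ((realPeriod E * regulator E P *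
      (s : ℝ) * (tamagawaProduct E : ℝ) / (torsionOrder E : ℝ) ^ 2 : ℝ) : ℂ)) : 0 < ρ := by
  obtain ⟨x, x0, k⟩ := h E L hL r r1 o
  have p : 0 ≤ realPeriod E := MeasureTheory.integral_nonneg fun _ => by positivity
  have g : 0 ≤ regulator E P := by
    interval_cases r
    · simp [regulator]
    · exact (Cn.reg_pos b).le
  rw [k] at e
  have e' : x / r.factorial = ρ * (realPeriod E * regulator E P * s * tamagawaProduct E /
    torsionOrder E ^ 2) := by exact_mod_cast e
  exact_mod_cast pos_of_mul_pos_left (e' ▸ div_pos x0 (by positivity)) (by positivity)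

/-- a positive rational number which is a unit at all primes is one -/
theorem eq_one {ρ : ℚ} (h : 0 < ρ) (v : ∀ p : ℕ, p.Prime → padicValRat p ρ = 0) : ρ = 1 := by
  have k : ∀ p : ℕ, p.Prime → ¬ p ∣ ρ.num.natAbs ∧ ¬ p ∣ ρ.den := fun p hp => by
    have := Fact.mk hp
    have e := v p hp
    rw [padicValRat, sub_eq_zero, padicValInt, Nat.cast_inj] at e
    have c : ¬ (p ∣ ρ.num.natAbs ∧ p ∣ ρ.den) := fun c =>
      hp.not_dvd_one (ρ.reduced ▸ Nat.dvd_gcd c.1 c.2)
    rw [dvd_iff_padicValNat_ne_zero (Int.natAbs_ne_zero.2 (Rat.num_ne_zero.2 h.ne')),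
      dvd_iff_padicValNat_ne_zero ρ.den_nz, e, and_self] at c ⊢
    exact c
  have a := Nat.eq_one_iff_not_exists_prime_dvd.2 fun p hp => (k p hp).1
  have d := Nat.eq_one_iff_not_exists_prime_dvd.2 fun p hp => (k p hp).2
  have := Rat.num_pos.2 h
  exact Rat.ext (by rw [Rat.num_one]; omega) d

end Vale.Agent.P014P
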