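import Vale.Agent.P014T.Gx.Wlx
import Vale.Agent.P014T.Z.Phs

/-! # P014P: the smoothed Shimura lift without character -/

set_option autoImplicit false
set_option linter.all false

open UpperHalfPlane hiding I
open Complex MeasureTheory Filter Finset CongruenceSubgroup
open scoped MatrixGroups Modular Real ComplexConjugate Topology NumberTheorySymbols Manifold
  ModularForm

noncomputable section

namespace Vale.Agent.P014P

open P004N (S2 QE)
open P004Z P004Z.Lf P014T.Z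

/-- the standing data -/
structure Dd (N p d : ℕ) : Prop where
  ok : Ok N d
  sq : (4 * N : ℤ) ∣ d + 1
  J : J(N | d) = 1
  pz : Pz1 N p
  nd : ¬ p ∣ d

variable {N : ℕ} [NeZero N] {p d : ℕ} {x : Cf N}

namespace Dd

theorem m4 (h : Dd N p d) : d % 4 = 3 := by
  have := (dvd_mul_right (4 : ℤ) N).trans h.sq
  omega

theorem eps (h : Dd N p d) : eps d = -1 := by
  rw [P004Z.eps, Gq.J_neg_one h.ok.odd, if_neg (by have := h.m4; omega)]

theorem cast (h : Dd N p d) : (d : ZMod (2 * N)) = -1 := by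
  have := (ZMod.intCast_zmod_eq_zero_iff_dvd _ (2 * N)).2
    (Dvd.dvd.trans ⟨2, by push_cast; ring⟩ h.sq)
  push_cast at this
  linear_combination this

theorem kap (h : Dd N p d) : kap N d = I * kap N 1 := by
  rw [Gq.kap_eq h.ok.odd h.ok.sq, Gq.kap_eq odd_one squarefree_one, h.J]
  simp [Gq.e4, h.m4, div_eq_mul_inv]

theorem sm (h : Dd N p d) (r s : ZMod (2 * N)) : sm N d r s = I * sm N 1 s (-r) := by
  have e : (-1 : ZMod (2 * N))⁻¹ = -1 := ZMod.inv_eq_of_mul_eq_one _ _ _ (by ring)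
  rw [P004Z.sm, P004Z.sm, h.kap, h.cast, e, mul_assoc, Nat.cast_one, ZMod.inv_one]
  congr 3
  ring

theorem sm' (h : Dd N p d) (r s : ZMod (2 * N)) :
    I * conj (P004Z.sm N 1 r s) = P004Z.sm N d r s := by
  rw [h.sm, P004Z.sm, P004Z.sm, map_mul, Du.conj_std, Gq.kap_eq odd_one squarefree_one]
  simp [Gq.e4, mul_comm]

theorem ne (h : Dd N p d) : NeZero p := ⟨h.pz.pr.ne_zero⟩

theorem inn (h : Dd N p d) {r : ZMod (2 * N)} {l : Fm} (e : ps N p 1 r l ≠ 0) :
    ∃ k : ℤ, disc l = p ^ 2 * k ∧ In N d k r := by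
  obtain ⟨n, h1, h2, -⟩ := tm_ps h.pz.sm e
  refine ⟨n, by simpa using h1, (dvd_add h2 (h.sq.mul_right n)).trans (dvd_of_eq ?_)⟩
  push_cast
  ring

end Dd

variable (p x) in
/-- the lift -/
def shp (z : ℍ) : ℂ :=
  ∫ τ in FD, (∑ r, fn x r τ * th1 (N * p ^ 2) (fun l => ps N p 1 r l) τ z) / τ.im ^ 2

variable (p x) in
/-- the seed -/
def sd (γ : SL(2, ℤ)) (τ : ℍ) (l : Fm) : ℂ := ∑ r, fn x r τ * ps N p 1 r (fa l γ)

variable (p x) in
/-- its coefficients -/
def cq (γ : SL(2, ℤ)) (l : Fm) : ℂ := ∑ r, x (disc l / p ^ 2).toNat r * ps N p 1 r (fa l γ)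

theorem seed (h : Dd N p d) (hx : IsS d x) (γ : SL(2, ℤ)) :
    Cs (N * p ^ 2) (sd p x γ) (cq p x γ) := by
  have := h.ne
  have h1 := NeZero.pos p
  have d1 : (p : ℂ) ≠ 0 := M_ne
  obtain ⟨p1, p2, -, -, p6, p7, -⟩ := phs1 h.pz
  have f := fun r => (fta γ).2.2.2.2.2 _ _ (NeZero.pos _) (p1 r)
  have cf : ∀ r, Continuous fun τ : ℍ => fn x r τ := fun r =>
    (Du.Pe.fn_dec hx r).diff.continuousOn.comp_continuous continuous_coe im_pos
  obtain ⟨B, hB⟩ : ∃ B : ℝ, ∀ l, ∑ r, ‖(ps N p 1 r l : ℂ)‖ ≤ B :=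
    ⟨_, fun l => sum_le_sum fun r _ => ps_bd r l⟩
  have bd : ∀ (τ : ℍ) l (A : ℝ), (∀ r, ‖fn x r τ‖ ≤ A) → ‖sd p x γ τ l‖ ≤ B * A := fun τ l A hA => by
    refine (norm_sum_le_of_le _ fun r _ => (norm_mul_le_of_le (hA r) le_rfl)).trans ?_
    rw [← mul_sum, mul_comm]
    exact mul_le_mul_of_nonneg_right (hB _) ((norm_nonneg _).trans (hA 0))
  refine ⟨⟨fun τ l m => sum_congr rfl fun r _ => congrArg _ ((f _).1 l m), fun τ l => ?_,
    fun τ l => ?_, fun l => continuous_finset_sum _ fun r _ => (cf r).mul continuous_const,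
    fun g τ b => ?_⟩, ?_, ?_, fun l v hv => ?_, fun l hl => ?_⟩
  · rw [sd, sd, mul_sum]
    refine sum_congr rfl fun r _ => ?_
    by_cases e : ps N p 1 r (fa l γ) = 0
    · simp [e]
    obtain ⟨k, hk, hi⟩ := h.inn e
    rw [W.coe_T, Du.Pe.fn_T h.ok hx, ← (Du.tm_iff h.ok k r).2 hi, ← Hd.disc_fa l γ, hk, mul_assoc]
    push_cast
    rw [show (p ^ 2 * k / (4 * (N * p ^ 2)) : ℂ) = k / (4 * N) by field_simp]
  · have e := Sb.ft_sum (N * p ^ 2) (fun r => fn x r τ) (fun r l => ps N p 1 r (fa l γ)) (-l)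
    have hw0 := Du.hw_ne τ.im_pos
    have e2 : (τ : ℂ) ^ 2 / hw τ = τ * hw τ * I := by
      rw [div_eq_iff hw0, mul_right_comm _ I, mul_assoc (τ : ℂ), ← sq, hw_sq]
      field_simp
    simp only [fun r => (f r).2.1, p2] at e
    rw [show ft (N * p ^ 2) (sd p x γ τ) (-l) = _ from e, sd, W.coe_S, ← one_div, ← neg_div]
    simp only [hx.law τ τ.im_pos, e2, mul_sum, sum_mul]
    rw [sum_comm]
    refine sum_congr rfl fun s _ => ?_
    rw [← Equiv.sum_comp (Equiv.neg _) fun t => -(τ * hw τ) * _]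
    refine sum_congr rfl fun r _ => ?_
    simp only [Equiv.neg_apply, Hd.fa_neg, p6, h.sm]
    linear_combination τ * hw τ * fn x s τ * ps N p 1 r (fa l γ) * sm N 1 s (-r) * I_sq
  · simp only [sd, Hd.fa_fa]
    rw [sum_comm]
    refine sum_eq_zero fun r _ => ?_
    rw [← mul_sum, ← Int.cast_sum, p7, Int.cast_zero, mul_zero]
  · obtain ⟨C, hC⟩ := (g2.2.1 N d h.ok x hx).2.1
    refine ⟨B * C, fun τ l => ?_⟩
    have := Real.rpow_pos_of_pos τ.im_pos (3 / 4)
    rw [← le_div_iff₀ this, mul_div_assoc]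
    exact bd τ l _ fun r => (le_div_iff₀ this).2 (hC r τ τ.im_pos)
  · obtain ⟨C, -, hC⟩ := Du.Pe.fn_le hx
    refine ⟨B * C, π / (2 * N), Du.Pe.c_pos, fun τ l hτ => ?_⟩
    rw [mul_assoc, ← neg_mul]
    exact bd τ l _ fun r => hC r τ hτ
  · simp only [co, sd, cq, sum_mul]
    have := cont_pt hv
    have := continuous_coe
    rw [intervalIntegral.integral_finsetSum]
    swap
    · exact fun r _ => Continuous.intervalIntegrable
        ((((cf r).comp (cont_pt hv)).mul continuous_const).mul (by fun_prop)) _ _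
    refine sum_congr rfl fun r _ => ?_
    by_cases e : ps N p 1 r (fa l γ) = 0
    · simp [e]
    obtain ⟨k, hk, hi⟩ := h.inn e
    rw [Hd.disc_fa] at hk
    rw [hk, Int.mul_ediv_cancel_left _ (by positivity), ← Sb.co_fn h.ok hx hi hv,
      ← intervalIntegral.integral_mul_const]
    refine intervalIntegral.integral_congr fun u _ => ?_
    push_cast
    rw [show (p ^ 2 * k * pt u v / (4 * (N * p ^ 2)) : ℂ) = k * pt u v / (4 * N) by field_simp]
    ring
  · simp [cq, Int.toNat_of_nonpos (Int.ediv_nonpos_of_nonpos_of_neg hl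
      (pow_pos (Int.natCast_pos.2 h1) 2)), hx.zero]

theorem sl_eq (h : Dd N p d) (γ : SL(2, ℤ)) :
    shp p x ∣[(2 : ℤ)] γ = Sh (N * p ^ 2) (sd p x γ⁻¹) := funext fun z => by
  have := h.ne
  have f := fun r => ((fta γ⁻¹).2.2.2.2.2 _ _ (NeZero.pos _) ((phs1 h.pz).1 r)).1
  have g := fun r τ => (((fta γ).2.2.2.2.2 _ _ (NeZero.pos _) (f r)).2.2 τ z).2
  simp only [Hd.fa_inv] at g
  rw [ModularForm.SL_slash_apply, ModularGroup.denom_apply, shp, int_FD fun τ => ∑ r, fn x r τ *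
    th1 (N * p ^ 2) (fun l => ps N p 1 r l) τ (γ • z : ℍ), Sh, ← integral_mul_const]
  refine integral_congr_ae (ae_of_all _ fun τ => ?_)
  have e := Sb.th_sum (fun r => fn x r τ) f τ z
  simp only [g, mul_left_comm _ (_ ^ 2), ← mul_sum, ← e]
  rw [mul_right_comm, zpow_neg, zpow_ofNat, mul_inv_cancel₀ (pow_ne_zero 2 (Hd.den_ne γ z)), one_mul]
  rfl

theorem shp_eq (h : Dd N p d) : shp p x = Sh (N * p ^ 2) (sd p x 1) := by
  simpa using sl_eq (x := x) h 1

/-- the lift is a cusp form -/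
theorem shp_s (h : Dd N p d) (hx : IsS d x) : S2 N (shp p x) := by
  have := h.ne
  refine ⟨shp_eq h ▸ (Sb.cusp sha (seed h hx 1)).1, fun γ hγ => ?_, fun γ => ?_⟩
  · rw [sl_eq h, shp_eq h]
    congr 1
    funext τ l
    simp only [sd, ps_fa odd_one _ _ (inv_mem hγ), Hd.fa_one]
  · rw [sl_eq h]
    exact (Sb.cusp sha (seed h hx _)).2

end Vale.Agent.P014P
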