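import Vale.Agent.P014P.Sa

/-! # P014P: the smoothed Shintani lift without character -/

set_option autoImplicit false
set_option linter.all false

open UpperHalfPlane hiding I
open Complex MeasureTheory Filter Set CongruenceSubgroup
open scoped MatrixGroups Modular Real ComplexConjugate Topology ModularForm

noncomputable section

namespace Vale.Agent.P014P

open P004N (S2)
open P004Z P004Z.Lf P004Z.Lf.Wx P014T.Z

variable {N : ℕ} [NeZero N] {p d : ℕ} {G : ℍ → ℂ}

/-- the lift -/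
def snp {N : ℕ} (p : ℕ) (G : ℍ → ℂ) : Cf N := fun n r =>
  sc N (N * p ^ 2) (fun l => ps N p 1 r l) G (p ^ 2 * n) 1

theorem Dd.pos (h : Dd N p d) : 0 < N * p ^ 2 := mul_pos (NeZero.pos N) (pow_pos h.pz.pr.pos 2)

theorem wa1 (h : Dd N p d) (hG : S2 N G) (r : ZMod (2 * N)) (D : ℤ) (v : ℝ) (hv : 0 < v) :
    sc N (N * p ^ 2) (fun l => ps N p 1 r l) G D v =
      sc N (N * p ^ 2) (fun l => ps N p 1 r l) G D 1 ∧
    (D ≤ 0 → sc N (N * p ^ 2) (fun l => ps N p 1 r l) G D v = 0) :=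
  wa N _ _ G (NeZero.pos N) h.pos ((phs1 h.pz).1 r) (by simp [ps_zero])
    (fun γ hγ l => by rw [ps_fa odd_one _ _ hγ]) hG D v hv

theorem sn_sum (du : Dd N p d) (hG : S2 N G) (r : ZMod (2 * N)) {τ : ℂ}
    (h : 0 < τ.im) : HasSum (fun n : ℕ => snp p G n r * ee (n * τ / (4 * N)))
      (√τ.im * conj (iX N (pp (N * p ^ 2) (fun l => ps N p 1 r l) G τ))) := by
  have d0 := du.pz.pr.pos
  have A := wa1 du hG r
  have := (Function.Injective.hasSum_iff (g := fun n : ℕ => (p : ℤ) ^ 2 * n) (fun a b e => by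
    simpa [d0.ne'] using e) fun D hD => ?_).2
    (expa du.pos (ps_bd (p := p) (e := 1) r) (fun l => by simp) h (NeZero.pos N) hG)
  · convert this using 2 with n
    simp only [Function.comp, snp, (A _ _ h).1]
    congr 2
    have : (p : ℂ) ≠ 0 := Nat.cast_ne_zero.2 d0.ne'
    push_cast
    field_simp
  · rcases le_or_gt D 0 with k | k
    · rw [(A D _ h).2 k, zero_mul]
    · refine mul_eq_zero_of_left ?_ _
      have : ∀ l : {l : Fm // disc l = D}, ps N p 1 r l = 0 := fun l => by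
        by_contra e
        obtain ⟨m, hm⟩ := (ps_ne e).1
        rw [l.2] at hm
        have : 0 ≤ m := by
          by_contra q
          have : (p : ℤ) ^ 2 * m ≤ 0 := mul_nonpos_of_nonneg_of_nonpos (by positivity) (by omega)
          omega
        exact hD ⟨m.toNat, by simp [hm, Int.toNat_of_nonneg this]⟩
      simp [sc, iX, this]

theorem pp_law (du : Dd N p d) (G : ℍ → ℂ) (r : ZMod (2 * N)) {τ : ℂ}
    (h : 0 < τ.im) (w : ℍ) : pp (N * p ^ 2) (fun l => ps N p 1 r l) G (-1 / τ) w =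
      -(τ * hw τ)⁻¹ * ‖τ‖ ^ 4 * ∑ t, sm N 1 r t *
        pp (N * p ^ 2) (fun l => ps N p 1 t l) G τ w := by
  have hν := du.pos
  obtain ⟨p1, p2, -⟩ := phs1 du.pz
  have a := (ths _ _ hν (p1 r) τ w h w.im_pos).2
  have b : ∑' l, tt (N * p ^ 2) (ft (N * p ^ 2) fun l => ps N p 1 r l) τ w l =
      ∑ t, sm N 1 r t * ∑' l, tt (N * p ^ 2) (fun l => ps N p 1 t l) τ w l := by
    simp only [← tsum_mul_left]
    rw [← Summable.tsum_finsetSum fun t _ => ((tt_sum hν (ps_bd t) h w).of_norm.mul_left _)]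
    refine tsum_congr fun l => ?_
    simp only [tt, p2, ← mul_assoc, ← Finset.sum_mul]
  have n := Du.ne0 h
  have v : (τ.im : ℂ) ≠ 0 := ofReal_ne_zero.2 h.ne'
  have n' : (‖τ‖ : ℂ) ≠ 0 := by simpa using n
  have i : ((-1 / τ).im : ℂ) = τ.im / ‖τ‖ ^ 2 := by
    rw [div_im, normSq_eq_norm_sq]
    simp [neg_div]
  have th : ∀ (φ : Fm → ℂ) (τ : ℂ), th1 (N * p ^ 2) φ τ w =
      τ.im ^ 2 * ∑' l, tt (N * p ^ 2) φ τ w l := fun _ _ => rfl
  rw [th, th, b, i] at a
  simp only [pp, ← mul_assoc _ _ (conj (G w) * _), ← Finset.sum_mul]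
  congr 1
  generalize ∑' l, tt (N * p ^ 2) (fun l => ps N p 1 r l) (-1 / τ) w l = X at a ⊢
  generalize ∑ t, sm N 1 r t * ∑' l, tt (N * p ^ 2) (fun l => ps N p 1 t l) τ w l = Y at a ⊢
  have := Du.hw_ne h
  field_simp at a ⊢
  exact a

/-- the lift is a cusp form -/
theorem snp_s (du : Dd N p d) (hG : S2 N G) : IsS d (snp (N := N) p G) := by
  have hN := NeZero.pos N
  have hν := du.pos
  have := Subgroup.fintypeQuotientOfFiniteIndex (H := Gamma0 N)
  have S := fun r τ h => sn_sum du hG r (τ := τ) h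
  have S' : ∀ r (τ : ℂ), 0 < τ.im → fn (snp p G) r τ = _ := fun r τ h => (S r τ h).tsum_eq
  refine ⟨fun r => (wa1 du hG r _ 1 one_pos).2 (by simp), fun n r e => ?_,
    fun r τ h => (S r τ h).summable.norm, fun τ h r => ?_⟩
  · obtain ⟨l, hl⟩ : ∃ l : {l : Fm // disc l = p ^ 2 * n}, ps N p 1 r l ≠ 0 := by
      by_contra q
      push Not at q
      exact e (by simp [snp, sc, iX, q])
    obtain ⟨k, k1, k2⟩ := du.inn hl
    rwa [mul_left_cancel₀ (pow_ne_zero 2 (Nat.cast_ne_zero.2 du.pz.pr.ne_zero))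
      (l.2.symm.trans k1)]
  · rw [S' r _ (Du.im_S h)]
    simp only [S' _ _ h, iX, finsum_eq_sum_of_fintype, pp_law du G r h, integral_const_mul]
    simp only [fun q : SL(2, ℤ) ⧸ Gamma0 N => integral_finsetSum Finset.univ fun t _ =>
      (pp_int hν (ps_bd (p := p) (e := 1) t) h hN hG q.out⁻¹).const_mul (sm N 1 r t),
      integral_const_mul, ← Finset.mul_sum]
    rw [Finset.sum_comm]
    simp only [← Finset.mul_sum, map_mul, map_sum (starRingEnd ℂ) _ (Finset.univ (α := ZMod _)),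
      ← du.sm']
    have i : √(-1 / τ).im = √τ.im / ‖τ‖ := by
      rw [div_im, normSq_eq_norm_sq]
      simp [neg_div, Real.sqrt_div h.le]
    have n := Du.ne0 h
    have n' : (‖τ‖ : ℂ) ≠ 0 := by simpa using n
    have a := Du.hw_ne h
    have a' : conj (hw τ) ≠ 0 := by simpa using a
    have n'' : conj τ ≠ 0 := by simpa using n
    have b := Du.hw_conj (τ := τ)
    have c := Du.hw_sq (τ := τ)
    have d : τ * conj τ = ‖τ‖ ^ 2 := by rw [mul_conj, normSq_eq_norm_sq]; push_cast; rfl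
    rw [i, Finset.mul_sum, Finset.mul_sum, Finset.mul_sum]
    refine Finset.sum_congr rfl fun t _ => ?_
    simp only [map_neg, map_inv₀, map_mul, map_pow, conj_ofReal, ofReal_div]
    have k : -((‖τ‖ : ℂ) ^ 4 / ‖τ‖ / (conj τ * conj (hw τ))) = τ ^ 2 / hw τ * I := by
      rw [pow_succ, mul_div_cancel_right₀ _ n', pow_succ, ← d, ← b]
      field_simp
      rw [c]
      field_simp
      simp
    linear_combination (exp := 1) (√τ.im * conj (sm N 1 r t) * conj (∑ q :
      SL(2, ℤ) ⧸ Gamma0 N, ∫ z in 𝒟, pp (N * p ^ 2) (fun l => ps N p 1 t l) G τ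
        (q.out⁻¹ • z))) * k

/-- the two lifts are adjoint -/
theorem snp_adj (du : Dd N p d) (hG : S2 N G) {y : Cf N} (hy : IsS d y) :
    Gl.B y (snp p G) = pet2 N (shp p y) G := by
  have hN := NeZero.pos N
  have hν := du.pos
  have := Subgroup.fintypeQuotientOfFiniteIndex (H := Gamma0 N)
  have S' : ∀ r (τ : ℂ), 0 < τ.im → fn (snp p G) r τ = _ := fun r τ h =>
    (sn_sum du hG r h).tsum_eq
  obtain ⟨A, A0, fb⟩ := Du.Pe.fn_le hy
  have mF := Sk.closed_FD.measurableSet
  have fi : ∀ r, IntegrableOn (fn y r) FD := fun r =>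
    Du.Pe.int_FD (Du.Pe.c_pos (N := N)) (Du.Pe.fn_dec hy r).diff.continuousOn (fb r)
  have J : ∀ r (g : SL(2, ℤ)), Integrable (fun q : ℂ × ℍ => fn y r q.1 *
      pp (N * p ^ 2) (fun l => ps N p 1 r l) G q.1 (g • q.2))
      ((volume.restrict FD).prod (volume.restrict 𝒟)) := by
    intro r g
    obtain ⟨C, e⟩ := pp_le' hν (ps_bd (p := p) (e := 1) r) one_half_pos hN hG g
    refine ((fi r).comp_fst _).mul_bdd (c := C) ((meas_pp _ _ hG.holo.continuous).comp
      (measurable_fst.prodMk ((meas_sl g).comp measurable_snd))).aestronglyMeasurable ?_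
    rw [Measure.prod_restrict]
    exact ae_restrict_of_forall_mem (mF.prod meas_fd) fun p hp => e _ (Du.Pe.FD_im hp.1) _ hp.2
  have e1 : pet (fn y) (fn (snp p G)) = ∫ τ in FD, ∑ q : SL(2, ℤ) ⧸ Gamma0 N, ∑ r,
      ∫ z in 𝒟, fn y r τ * pp (N * p ^ 2) (fun l => ps N p 1 r l) G τ (q.out⁻¹ • z) := by
    refine setIntegral_congr_fun mF fun τ h => ?_
    have h := h.2.2
    have s : (√τ.im : ℂ) * (τ.im ^ (-(1 / 2) : ℝ) : ℝ) = 1 := by
      rw [← ofReal_mul, Real.sqrt_eq_rpow, ← Real.rpow_add h]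
      simp
    simp only [S' _ _ h, map_mul, conj_conj, conj_ofReal, iX, finsum_eq_sum_of_fintype,
      integral_const_mul]
    rw [Finset.sum_comm, Finset.sum_mul]
    refine Finset.sum_congr rfl fun r _ => ?_
    rw [← Finset.mul_sum]
    linear_combination (fn y r τ * ∑ q : SL(2, ℤ) ⧸ Gamma0 N, ∫ z in 𝒟,
      pp (N * p ^ 2) (fun l => ps N p 1 r l) G τ (q.out⁻¹ • z)) * s
  rw [Gl.B, e1, integral_finsetSum _ fun q _ => integrable_finsetSum _ fun r _ =>
    (J r _).integral_prod_left, pet2, finsum_eq_sum_of_fintype]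
  refine Finset.sum_congr rfl fun q _ => ?_
  generalize q.out⁻¹ = g
  rw [integral_finsetSum _ fun r _ => (J r g).integral_prod_left,
    int_FD fun z => petersson 2 G (shp p y) (g • ofComplex z),
    Finset.sum_congr rfl fun r _ => integral_integral_swap (J r g),
    ← integral_finsetSum _ fun r _ => (J r g).integral_prod_right]
  refine integral_congr_ae ?_
  filter_upwards [ae_all_iff.2 fun r => (J r g).prod_left_ae] with z hz
  rw [← integral_finsetSum _ fun r _ => hz r, ofComplex_apply, petersson, shp, mul_right_comm,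
    ← integral_const_mul]
  refine setIntegral_congr_fun mF fun τ h => ?_
  have v : (τ.im : ℂ) ≠ 0 := ofReal_ne_zero.2 h.2.2.ne'
  simp only [pp, tt, th1, Finset.sum_div, Finset.mul_sum, zpow_ofNat]
  refine Finset.sum_congr rfl fun r _ => ?_
  field_simp

end Vale.Agent.P014P
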