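import Vale.Agent.P014P.Sa

/-! # P014P: the expansion of the smoothed Shimura lift -/

set_option autoImplicit false
set_option linter.all false

open UpperHalfPlane hiding I
open Complex MeasureTheory Filter Finset CongruenceSubgroup
open scoped MatrixGroups Modular Real ComplexConjugate Topology NumberTheorySymbols Manifold
  ModularForm

noncomputable section

namespace Vale.Agent.P014P

open P004N (S2 QE)
open P004Z P004Z.Lf P014T.Z

variable {N : ℕ} [NeZero N] {p d : ℕ} {x : Cf N}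

theorem om_0 (hp : p.Prime) {b : ℤ} (d : ¬ (p : ℤ) ∣ b) (j : ℤ) : om p (0, b, j) = 0 :=
  by_contra fun h => d ((Nat.prime_iff_prime_int.1 hp).dvd_of_dvd_pow (n := 2)
    ((dvd_pow_self _ two_ne_zero).trans (by simpa [disc] using om_ne h)))

theorem om_v (hp : p.Prime) (b j : ℤ) : (om p (0, p * b, j) : ℂ) =
    (if ((1 : ℕ) : ℤ) ∣ j then 1 else 0) + ((if (p : ℤ) ∣ b then 0 else 1) - p - 1) *
      (if (p : ℤ) ∣ j then 1 else 0) + (if (p : ℤ) ∣ b then (p : ℂ) else 0) *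
        if ((p ^ 2 : ℕ) : ℤ) ∣ j then 1 else 0 := by
  have p0 : (p : ℤ) ≠ 0 := Nat.cast_ne_zero.2 hp.ne_zero
  rw [if_pos (by simp)]
  by_cases k : (p : ℤ) ∣ j
  · obtain ⟨j, rfl⟩ := k
    rw [show ((0, p * b, p * j) : Fm) = (p : ℤ) • ((0, b, j) : Fm) by simp, om_smul hp.ne_zero,
      if_pos (dvd_mul_right _ _), show disc (0, b, j) = b ^ 2 by simp [disc]]
    simp only [dvd_zero, true_and, Nat.cast_pow, sq (p : ℤ), mul_dvd_mul_iff_left p0]
    by_cases hb : (p : ℤ) ∣ b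
    · rw [Hd.J_dvd hp.one_lt (dvd_pow hb two_ne_zero)]
      by_cases hj : (p : ℤ) ∣ j <;> simp [hb, hj]
    · rw [jacobiSym.sq_one' (Hd.gcd_one hp hb)]
      simp [hb, sub_eq_add_neg]
  · rw [P014T.Z.om, if_neg fun h => k h.2.2, if_pos (by simp [disc, mul_pow]), if_neg k,
      if_neg fun h => k (Dvd.dvd.trans ⟨p, by push_cast; ring⟩ h)]
    simp

theorem fou {u v M : ℕ} (hM : M ≠ 0) (e : u * v = M) (t : ℤ) :
    ∑ j ∈ range M, (if (u : ℤ) ∣ (j : ℤ) then 1 else 0) * ee (-(j * t / M)) =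
      if (v : ℤ) ∣ t then (v : ℂ) else 0 := by
  subst e
  have := Ps.S1_one (f := fun _ => 1) one_ne_zero (left_ne_zero_of_mul hM)
    (right_ne_zero_of_mul hM) (fun _ _ _ => rfl) (-t)
  simpa [Ps.S1, ee_zero, neg_div] using this

theorem cq_eq (b j : ℤ) : cq p x 1 (0, b, j) = x (b ^ 2 / p ^ 2).toNat b * om p (0, b, j) := by
  rw [cq, sum_eq_single_of_mem (b : ZMod (2 * N)) (mem_univ _) fun r _ e => ?_]
  · simp [Hd.fa_one, ps, ph, disc, gc]
  · rw [Hd.fa_one, ps, ph, if_neg fun k => e k.2.1.symm]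
    simp

theorem ch_p (hp : p.Prime) (b n : ℤ) : ch (N * p ^ 2) (cq p x 1) (p * b) n =
    x (b ^ 2).toNat (p * b) * ((if ((N * p ^ 2 : ℕ) : ℤ) ∣ n then ((N * p ^ 2 : ℕ) : ℂ) else 0) +
      ((if (p : ℤ) ∣ b then 0 else 1) - p - 1) *
        (if ((N * p : ℕ) : ℤ) ∣ n then ((N * p : ℕ) : ℂ) else 0) +
      (if (p : ℤ) ∣ b then (p : ℂ) else 0) * if (N : ℤ) ∣ n then (N : ℂ) else 0) := by
  have p0 : (p : ℤ) ≠ 0 := Nat.cast_ne_zero.2 hp.ne_zero
  have M0 : N * p ^ 2 ≠ 0 := mul_ne_zero (NeZero.ne N) (pow_ne_zero 2 hp.ne_zero)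
  rw [← fou M0 (one_mul _) n, ← fou (u := p) (v := N * p) M0 (by ring) n,
    ← fou (u := p ^ 2) (v := N) M0 (by ring) n]
  simp only [ch, cq_eq, om_v hp, mul_pow, Int.mul_ediv_cancel_left _ (pow_ne_zero 2 p0), mul_sum,
    ← sum_add_distrib]
  refine sum_congr rfl fun j _ => ?_
  push_cast
  ring

theorem ch_0 (hp : p.Prime) {b n : ℤ} (h : ¬ ((p : ℤ) ∣ b ∧ (N : ℤ) ∣ n)) :
    ch (N * p ^ 2) (cq p x 1) b n = 0 := by
  by_cases k : (p : ℤ) ∣ b
  · obtain ⟨b, rfl⟩ := k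
    have k : ¬ (N : ℤ) ∣ n := fun e => h ⟨dvd_mul_right _ _, e⟩
    rw [ch_p hp, if_neg k, if_neg fun e => k (Dvd.dvd.trans ⟨p ^ 2, by push_cast; ring⟩ e),
      if_neg fun e => k (Dvd.dvd.trans ⟨p, by push_cast; ring⟩ e)]
    simp
  · simp [ch, cq_eq, om_0 hp k]

/-- the weights -/
def wt (p b n : ℕ) : ℂ := (if p ∣ b * n then 1 else 0) - (if p ∣ n then (p + 1 : ℂ) else 0) +
  if p ^ 2 ∣ n then (p : ℂ) else 0

theorem ch_eq (h : Dd N p d) (hx : IsS d x) (b n : ℕ) :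
    ch (N * p ^ 2) (cq p x 1) (-(p * b : ℕ)) (N * n : ℕ) = -(N * p) * (x (b ^ 2) b * wt p b n) := by
  have hp := h.pz.pr
  have n0 := NeZero.pos N
  rw [show (-(p * b : ℕ) : ℤ) = p * (-b : ℤ) by push_cast; ring, ch_p hp, h.pz.sm.zm, one_mul,
    Int.cast_neg, (g2.2.1 N d h.ok x hx).1, h.eps, neg_sq, ← Nat.cast_pow, Int.toNat_natCast, wt]
  simp only [dvd_neg, Int.natCast_dvd_natCast, Nat.mul_dvd_mul_iff_left n0, hp.dvd_mul,
    dvd_mul_right, if_true, Int.cast_natCast]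
  by_cases k1 : p ∣ b <;> by_cases k2 : p ∣ n <;> by_cases k3 : p ^ 2 ∣ n <;>
    simp only [k1, k2, k3, if_true, if_false, or_true, true_or, or_self] <;> push_cast <;> ring

/-- the coefficients of the lift without smoothing -/
def sc1 (x : Cf N) (j : ℕ) : ℂ := ∑ i ∈ j.divisors, x (i ^ 2) i

theorem sum_dv {k m : ℕ} (hk : 0 < k) (u : ℕ → ℂ) (c : ℂ) :
    ∑ i ∈ m.divisors, u i * (if k ∣ m / i then c else 0) =
      if k ∣ m then c * ∑ i ∈ (m / k).divisors, u i else 0 := by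
  split_ifs with e
  · obtain ⟨m, rfl⟩ := e
    rw [Nat.mul_div_cancel_left _ hk, mul_sum, eq_comm]
    refine sum_subset_zero_on_sdiff (fun i hi => ?_) (fun i hi => ?_) fun i hi => ?_
    · rw [Nat.mem_divisors] at hi ⊢
      exact ⟨hi.1.mul_left _, mul_ne_zero hk.ne' hi.2⟩
    · rw [Finset.mem_sdiff, Nat.mem_divisors, Nat.mem_divisors] at hi
      rw [if_neg, mul_zero]
      rintro ⟨t, q⟩
      refine hi.2 ⟨⟨t, Nat.eq_of_mul_eq_mul_left hk ?_⟩, right_ne_zero_of_mul hi.1.2⟩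
      rw [mul_left_comm, ← q, Nat.mul_div_cancel' hi.1.1]
    · rw [Nat.mul_div_assoc _ (Nat.dvd_of_mem_divisors hi), if_pos (dvd_mul_right _ _), mul_comm]
  · exact sum_eq_zero fun i hi => by
      rw [if_neg fun q => e (q.trans (Nat.div_dvd_of_dvd (Nat.dvd_of_mem_divisors hi))), mul_zero]

theorem wt_sum (hp : p.Prime) (j : ℕ) :
    ∑ i ∈ (p * j).divisorsAntidiagonal, x (i.1 ^ 2) i.1 * wt p i.1 i.2 =
      Tc p (sc1 x) j - (p + 1) * sc1 x j := by
  rw [Nat.sum_divisorsAntidiagonal fun a b => x (a ^ 2) a * wt p a b]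
  simp only [wt, mul_add, mul_sub, sum_add_distrib, sum_sub_distrib, sum_dv hp.pos,
    sum_dv (pow_pos hp.pos 2)]
  simp only [dvd_mul_right, if_true, Nat.mul_div_cancel_left _ hp.pos, Tc, sc1,
    sq p, Nat.mul_dvd_mul_iff_left hp.pos, Nat.mul_div_mul_left _ _ hp.pos]
  rw [sum_congr rfl fun i hi => by
    rw [Nat.mul_div_cancel' (Nat.dvd_of_mem_divisors hi), if_pos (dvd_mul_right _ _), mul_one]]
  ring

theorem qe (h : Dd N p d) (hx : IsS d x) :
    QE (shp p x) fun j => -(4 * I * N * p) * (Tc p (sc1 x) j - (p + 1) * sc1 x j) := fun z => by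
  have := h.ne
  have hp := h.pz.pr
  have i1 : Function.Injective fun q : ℕ × ℕ => (q.1 + 1, q.2 + 1) := fun p q e => by
    simpa [Prod.ext_iff] using e
  have i2 : Function.Injective fun q : ℕ × ℕ => (N * q.2, p * q.1) := fun p q e => by
    simpa [Prod.ext_iff, NeZero.ne N, hp.ne_zero, and_comm] using e
  have w0 : ∀ b, wt p b 0 = 0 := fun b => by simp [wt]
  have s1 := (i1.hasSum_iff (f := fun q : ℕ × ℕ => 4 * I * ch (N * p ^ 2) (cq p x 1) (-q.2) q.1 *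
      ee (q.1 * q.2 * z / (N * p ^ 2 : ℕ))) fun ⟨n, b⟩ hq => ?_).1
    (hs_congr (sha _ _ _ (seed h hx 1) z) (fun p => by simp) rfl)
  · have s2 := (i2.hasSum_iff fun ⟨n, b⟩ hq => ?_).2 s1
    · have e : ∀ q : ℕ × ℕ, 4 * I * ch (N * p ^ 2) (cq p x 1) (-(p * q.1 : ℕ)) (N * q.2 : ℕ) *
          ee ((N * q.2 : ℕ) * (p * q.1 : ℕ) * z / (N * p ^ 2 : ℕ)) =
          -(4 * I * N * p) * (x (q.1 ^ 2) q.1 * wt p q.1 q.2) * ee ((q.1 * q.2 : ℕ) * z / p) :=
        fun q => by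
          have := M_ne (M := N)
          have := M_ne (M := p)
          rw [ch_eq h hx]
          push_cast
          rw [show (N * q.2 * (p * q.1) * z / (N * p ^ 2) : ℂ) = q.1 * q.2 * z / p by field_simp]
          ring
      have s3 := s2.tsum_fiberwise fun q => q.1 * q.2
      simp only [Function.comp, e] at s3
      rw [shp_eq h]
      refine hs_congr (((mul_right_injective₀ hp.ne_zero).hasSum_iff fun m hm => ?_).2 s3)
        (fun j => ?_) rfl
      · refine (tsum_congr fun ⟨q, hq⟩ => ?_).trans tsum_zero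
        have k : ¬ p ∣ q.1 * q.2 := fun ⟨t, k⟩ => hm ⟨t, k.symm.trans hq⟩
        have k1 : ¬ p ∣ q.2 := fun a => k (a.mul_left _)
        simp [wt, k, k1, mt (dvd_pow_self p two_ne_zero).trans k1]
      simp only [← wt_sum hp, Function.comp]
      rcases eq_or_ne j 0 with rfl | hj
      · rw [mul_zero, Nat.divisorsAntidiagonal_zero, sum_empty, mul_zero, zero_mul, eq_comm]
        refine (tsum_congr fun ⟨q, hq⟩ => ?_).trans tsum_zero
        rcases mul_eq_zero.1 hq with e | e <;> simp [e, hx.zero, w0]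
      · rw [show (fun q : ℕ × ℕ => q.1 * q.2) ⁻¹' {p * j} = (p * j).divisorsAntidiagonal by
          ext; simp [hj, hp.ne_zero],
          Finset.tsum_subtype' (p * j).divisorsAntidiagonal fun q => _ *
            (x (q.1 ^ 2) q.1 * wt p q.1 q.2) * ee ((q.1 * q.2 : ℕ) * z / p), mul_sum, sum_mul]
        refine sum_congr rfl fun q hq => ?_
        have := M_ne (M := p)
        rw [(Nat.mem_divisorsAntidiagonal.1 hq).1, ee]
        congr 2
        push_cast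
        field_simp
    · rw [ch_0 hp fun k => hq ?_, mul_zero, zero_mul]
      obtain ⟨i, rfl⟩ := Int.natCast_dvd_natCast.1 (dvd_neg.1 k.1)
      obtain ⟨j, rfl⟩ := Int.natCast_dvd_natCast.1 k.2
      exact ⟨(i, j), rfl⟩
  · by_cases k : (p : ℤ) ∣ -(b : ℤ) ∧ (N : ℤ) ∣ n
    swap
    · rw [ch_0 hp k, mul_zero, zero_mul]
    obtain ⟨i, rfl⟩ := Int.natCast_dvd_natCast.1 (dvd_neg.1 k.1)
    obtain ⟨j, rfl⟩ := Int.natCast_dvd_natCast.1 k.2
    rw [ch_eq h hx]
    rcases eq_or_ne j 0 with rfl | j0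
    · simp [w0]
    rcases eq_or_ne i 0 with rfl | i0
    · simp [hx.zero]
    exact absurd ⟨(N * j - 1, p * i - 1), Prod.ext
      (Nat.sub_add_cancel (Nat.mul_pos (NeZero.pos N) j0.bot_lt))
      (Nat.sub_add_cancel (Nat.mul_pos hp.pos i0.bot_lt))⟩ hq

end Vale.Agent.P014P
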