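import Vale.Agent.P014P.Nn
import Vale.Agent.P014P.Sq
import Vale.Agent.P014P.Sb
import Vale.Agent.P014T.An.Mel

/-! # P014P: the central value of a newform is not negative -/

set_option autoImplicit false
set_option linter.all false

open UpperHalfPlane hiding I
open Complex MeasureTheory Finset CongruenceSubgroup
open scoped Real ComplexConjugate NumberTheorySymbols ComplexOrder

noncomputable section

namespace Vale.Agent.P014P

open P004N (S2 QE RN)
open P004Z P004Z.Lf P004Z.Gl P014T.Z P014T.An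

variable {N : ℕ} [NeZero N] {p d l : ℕ} {G : ℍ → ℂ} {a : ℕ → ℤ}

theorem sht0 (h : Dd N p d) (hl : l.Prime) (h1 : ¬ l ∣ 2 * N * d) (x : Cf N) :
    sc1 (TT d l x) = Tc l (sc1 x) := by
  funext j
  have hco : l.Coprime (2 * N) := hl.coprime_iff_not_dvd.2 fun e => h1 (e.mul_right _)
  have h2 := Gq.J_flip h.m4 (hl.odd_of_ne_two fun q =>
    h1 (q ▸ (dvd_mul_right 2 N).mul_right d))
  have h3 := Gq.J_cop (hl.coprime_iff_not_dvd.2 fun e => h1 (e.mul_left (2 * N)))
  have : NeZero l := ⟨hl.ne_zero⟩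
  have e := Wl.conv hl (fun _ => 1) (fun i => x (i ^ 2) i) (fun _ _ => (one_mul _).symm) j
  simp only [one_mul] at e
  refine Eq.trans (sum_congr rfl fun i _ => ?_) e
  rw [TT]
  congr 1
  · congr 1
    · rw [mul_pow, Nat.cast_mul]
    · have e1 : J(-((d : ℤ) * (i ^ 2 : ℕ)) | l) = J(-(d : ℤ) | l) * J(i | l) ^ 2 := by
        rw [← jacobiSym.pow_left, ← jacobiSym.mul_left]
        congr 1
        push_cast
        ring
      rw [e1, ← mul_assoc, h2, h3, one_mul]
      split_ifs with k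
      · rw [(jacobiSym.eq_zero_iff_not_coprime (a := i)).2]
        · simp
        · rw [Int.gcd_natCast_natCast]
          exact fun e => hl.coprime_iff_not_dvd.1 (Nat.Coprime.symm e) k
      · rw [jacobiSym.sq_one, Int.cast_one, one_mul]
        rw [Int.gcd_natCast_natCast]
        exact (hl.coprime_iff_not_dvd.2 k).symm
  · by_cases k : l ∣ i
    · obtain ⟨k, rfl⟩ := k
      rw [if_pos ⟨k ^ 2, by ring⟩, if_pos (dvd_mul_right _ _),
        Nat.mul_div_cancel_left _ hl.pos, mul_pow, Nat.mul_div_cancel_left _ (pow_pos hl.pos 2)]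
      congr 2
      push_cast
      linear_combination (k : ZMod (2 * N)) * ZMod.coe_mul_inv_eq_one l hco
    · rw [if_neg k, if_neg fun e => k (hl.dvd_of_dvd_pow ((dvd_pow_self l two_ne_zero).trans e))]

theorem tc_comm (hl : l.Prime) (hp : p.Prime) (c : ℕ → ℂ) : Tc l (Tc p c) = Tc p (Tc l c) := by
  rcases eq_or_ne l p with rfl | ne
  · rfl
  have co := (Nat.coprime_primes hl hp).2 ne
  have k1 : ∀ n, l ∣ p * n ↔ l ∣ n := fun n => co.dvd_mul_left
  have k2 : ∀ n, p ∣ l * n ↔ p ∣ n := fun n => co.symm.dvd_mul_left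
  funext n
  simp only [Tc, k1, k2, mul_left_comm p l]
  by_cases a : l ∣ n <;> by_cases b : p ∣ n
  · obtain ⟨m, rfl⟩ := co.mul_dvd_of_dvd_of_dvd a b
    have e1 : l * p * m / l = p * m := by rw [mul_assoc, Nat.mul_div_cancel_left _ hl.pos]
    have e2 : l * p * m / p = l * m := by
      rw [mul_right_comm, Nat.mul_div_cancel _ hp.pos]
    simp only [a, b, if_true, Nat.mul_div_assoc _ a, Nat.mul_div_assoc _ b, e1, e2, dvd_mul_right,
      Nat.mul_div_cancel_left _ hl.pos, Nat.mul_div_cancel_left _ hp.pos]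
    ring
  · simp [a, b, Nat.mul_div_assoc _ a, mt (dvd_trans · (Nat.div_dvd_of_dvd a)) b]
  · simp [a, b, Nat.mul_div_assoc _ b, mt (dvd_trans · (Nat.div_dvd_of_dvd b)) a]
  · simp [a, b]

/-- the smoothed lift of a newform is an eigenform -/
theorem snp_eig (h : Dd N p d) (hG : RN N G a) : Eig d (2 * N * d) a (snp (N := N) p G) := by
  have hs := snp_s h hG.s2
  obtain ⟨-, -, sa⟩ := pet2_all N hG.pos
  intro l hl h1
  have h3 : ¬ l ∣ N := fun e => h1 ((e.mul_left _).mul_right _)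
  refine Wl.eq_of_B g2.2.1 h.ok (a l) hs (hecke N _ l h.ok hl h1 _ hs) fun y hy => ?_
  have hy' := hecke N _ l h.ok hl h1 y hy
  rw [B, ← self g2.2.1 N _ l h.ok hl h1 y _ hy hs, ← B, snp_adj h hG.s2 hy', snp_adj h hG.s2 hy]
  have q1 := qe h hy'
  rw [sht0 h hl h1, ← tc_comm hl h.pz.pr] at q1
  have q2 : QE ((a l : ℂ) • G) (Tc l fun n => (a n : ℂ)) := by
    have : (Tc l fun n => (a n : ℂ)) = (a l : ℂ) • fun n => (a n : ℂ) :=
      funext fun n => hG.te l hl h3 n
    rw [this]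
    exact P004N.H461.QE.smul hG.qe _
  have q3 : (fun j => -(4 * I * N * p) * (Tc l (Tc p (sc1 y)) j - (p + 1) * Tc l (sc1 y) j)) =
      Tc l fun j => -(4 * I * N * p) * (Tc p (sc1 y) j - (p + 1) * sc1 y j) := funext fun n => by
    generalize Tc p (sc1 y) = c
    simp only [Tc]
    split_ifs <;> ring
  rw [sa l _ G _ _ _ _ hl h3 (shp_s h hy) hG.s2 (qe h hy) hG.qe (q3 ▸ q1) q2]
  simpa using Wl.pet2_smul N 1 (a l) (shp p y) G

theorem Dd.np (h : Dd N p d) : ¬ p ∣ 2 * N * d := fun e =>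
  (h.pz.pr.dvd_mul.1 e).elim (fun e => h.pz.sm.nd (e.mul_right 1)) h.nd

/-- the smoothed Shimura lift of an eigenform -/
theorem shp_eig (h : Dd N p d) (hG : RN N G a) {y : Cf N} (hy : IsS d y)
    (he : Eig d (2 * N * d) a y) :
    shp p y = (-(4 * I * N * p) * ((a p - p - 1) * y 1 1)) • G := by
  have := hG.pos
  have := h.ok.one
  have te : ∀ l : ℕ, l.Prime → ¬ l ∣ 2 * N * d → ∀ n, Tc l (sc1 y) n = a l * sc1 y n :=
    fun l hl h1 n => by
      rw [← sht0 h hl h1, he l hl h1, sc1, sc1, mul_sum]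
      rfl
  have s2 := qe h hy
  simp only [te p h.pz.pr h.np] at s2
  obtain ⟨κ, hκ⟩ := smo N (2 * N * d) G a hG (by positivity) _ _ (shp_s h hy) s2
    (fun l hl h1 n => by
      have h3 := te l hl h1 n
      rw [Tc] at h3
      split_ifs at h3 ⊢ <;> linear_combination -(4 * I * N * p) * (a p - p - 1) * h3)
  have e : shp p y = κ • G := funext hκ
  rw [e] at s2 ⊢
  have := congrFun (P004N.H461.QE.unique s2 (P004N.H461.QE.smul hG.qe κ)) 1
  congr 1
  simp only [sc1, Nat.divisors_one, sum_singleton, Pi.smul_apply, hG.one, smul_eq_mul, one_pow,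
    Nat.cast_one, Int.cast_one, mul_one] at this
  linear_combination -this

theorem av_sum (hp : p.Prime) {c : ℕ → ℂ} (e : QE G c) (g : Gd c) (g' : Gd (cp p c)) {y : ℝ}
    (hy : 0 < y) : ∑ j : Fin p, (om p (0, p, j) : ℂ) *
      G (ofComplex (I * y - ((j : ℤ) / p : ℝ))) = -p * qs (cp p c) y := by
  have := NeZero.mk hp.ne_zero
  have m : ∀ j : Fin p, 0 < (I * y - ((j : ℤ) / p : ℝ)).im := fun j => by simpa using hy
  refine (hasSum_sum fun (j : Fin p) _ => (e (ofComplex (I * y - ((j : ℤ) / p : ℝ)))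
    ).mul_left (om p (0, p, j) : ℂ)).tsum_eq.symm.trans ?_
  simp only [qs, ← tsum_mul_left]
  refine tsum_congr fun n => ?_
  have o : ∀ j : Fin p, (om p (0, p, j) : ℂ) = 1 - if j = 0 then (p : ℂ) else 0 := fun j => by
    have k := om_v hp 1 j
    have k1 : ¬ (p : ℤ) ∣ 1 := (Nat.prime_iff_prime_int.1 hp).not_dvd_one
    have k2 : (p : ℤ) ∣ j ↔ j = 0 := ⟨fun h => Fin.ext (Nat.eq_zero_of_dvd_of_lt
      (Int.natCast_dvd_natCast.1 h) j.2), fun h => by simp [h]⟩
    rw [mul_one] at k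
    simp only [k, k1, k2]
    split_ifs <;> simp_all <;> ring
  have t : ∀ j : Fin p, cexp (2 * π * I * n * (ofComplex (I * y - ((j : ℤ) / p : ℝ)) : ℍ)) =
      ee (n * (I * y)) * ee (j * (-n : ℤ) / p) := fun j => by
    rw [ofComplex_apply_of_im_pos (m j), ← ee_add, ee]
    congr 1
    push_cast
    ring
  have u := orth (L := p) (-n)
  rw [sum_range] at u
  simp only [o, t, sub_mul, one_mul, sum_sub_distrib, ← mul_sum, u, ite_mul, zero_mul, sum_ite_eq',
    mem_univ, if_true, cp, Nat.coprime_comm (n := n), hp.coprime_iff_not_dvd, dvd_neg,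
    Int.natCast_dvd_natCast]
  split_ifs <;> simp [ee_zero] <;> ring

/-- the first coefficient of the smoothed Shintani lift -/
theorem snp_co (h : Dd N p d) (hG : RN N G a) : 2 * π * snp (N := N) p G 1 1 =
    I * (√(N : ℝ) * p : ℝ) * ((a p - p - 1) * M0 fun n => a n) := by
  have hp := h.pz.pr
  have nd : ¬ p ∣ N := fun e => h.np ((e.mul_left _).mul_right _)
  have g := gd hG.pos hG.s2 hG.qe (by simp [hG.zero])
  obtain ⟨g', v, -⟩ := g.rm (x := a p) (y := p) hp fun n => by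
    linear_combination hG.te p hp nd n
  have q : ∀ j : ℤ, ps N p 1 1 (0, p, j) = om p (0, p, j) := fun j => by
    simp [ps, ph, gc, h.pz.sm.zm]
  have p0 : (p : ℂ) ≠ 0 := Nat.cast_ne_zero.2 hp.ne_zero
  rw [snp, Nat.cast_one, mul_one, sq (p : ℤ), P014T.Gx.scx hG.pos h.pos hp.pos
    (hp.coprime_iff_not_dvd.2 nd).symm hG.s2 ⟨_, ps_bd 1⟩
    (fun γ hγ l => by rw [ps_fa odd_one _ _ hγ]) fun l _ k => ?_,
    setIntegral_congr_fun measurableSet_Ioi fun y hy => by
      simp only [q]; exact av_sum hp hG.qe g g' hy,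
    integral_const_mul, Nat.cast_mul, Real.sqrt_mul N.cast_nonneg, Nat.cast_pow,
    Real.sqrt_sq p.cast_nonneg]
  · rw [M0] at v
    have : (a p - p - 1 : ℂ) = -p * (1 - a p / p + p / p ^ 2) := by field_simp; ring
    rw [this, mul_assoc (-p : ℂ), ← v]
    ring
  · obtain ⟨h1, h2, -⟩ := Hd.ph_ne (ps_ne (show ps N p 1 1 l ≠ 0 by simpa using k)).2
    have := (ZMod.intCast_eq_intCast_iff_dvd_sub p l.2.1 (2 * N)).1 (by simp [h2, h.pz.sm.zm])
    exact ⟨h1, by exact_mod_cast this⟩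

theorem ex_dd (N : ℕ) [NeZero N] : ∃ p d, Dd N p d := by
  have n0 := NeZero.pos N
  obtain ⟨d, d1, d2, d3⟩ := Nat.forall_exists_prime_gt_and_modEq (8 * N) (q := 8 * N)
    (a := 8 * N - 1) (by omega) (by
      rw [Nat.coprime_comm, Nat.coprime_self_sub_right (by omega)]; exact Nat.coprime_one_right _)
  obtain ⟨p, p1, p2, p3⟩ := Nat.exists_prime_gt_modEq_one (k := 4 * N) d (by omega)
  have e : (8 * N : ℤ) ∣ d + 1 := by
    have := (Nat.modEq_iff_dvd.1 (d3.add_right 1).symm)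
    rw [Nat.sub_add_cancel (by omega)] at this
    simpa using dvd_add this dvd_rfl
  have e8 := (dvd_mul_right (8 : ℤ) N).trans e
  have o : Odd d := Nat.odd_iff.2 (by omega)
  have j : J(N | d) = 1 := Gq.J_all N n0.ne' fun q hq k => by
    rcases eq_or_ne q 2 with rfl | h2
    · rw [Nat.cast_ofNat, jacobiSym.at_two o, ZMod.χ₈_nat_eq_if_mod_eight, if_neg (by omega),
        if_pos (by omega)]
    · rw [← Gq.J_flip (by omega) (hq.odd_of_ne_two h2), Hd.J_congr (b := 1), jacobiSym.one_left]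
      rw [show -(d : ℤ) - 1 = -(d + 1) by ring, dvd_neg]
      exact ((Int.natCast_dvd_natCast.2 k).mul_left 8).trans e
  exact ⟨p, d, ⟨o, d2.squarefree, d2.one_lt, Gq.cop_J d2.ne_zero j⟩,
    Dvd.dvd.trans ⟨2, by ring⟩ e, j, ⟨p1, by simpa using Nat.modEq_iff_dvd.1 p3.symm⟩,
    fun k => (Nat.le_of_dvd d2.pos k).not_gt p2⟩

omit [NeZero N] in
/-- **the central value is not negative** -/
theorem m0_nn (hG : RN N G a) : 0 ≤ M0 fun n => a n := by
  have := NeZero.mk hG.pos.ne'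
  obtain ⟨p, d, h⟩ := ex_dd N
  have n0 := hG.pos
  have p0 := h.pz.pr.pos
  have s := snp_s h hG.s2
  have k := mul_nonneg (zero_le_real.2 Real.two_pi_pos.le) (B_nn (snp (N := N) p G))
  have t : (a p - p - 1 : ℝ) ≠ 0 := fun e => (triv N G a hG p h.pz.pr fun e =>
    h.np ((e.mul_left _).mul_right _)).1 (by
      have : ((a p : ℤ) : ℝ) = ((p + 1 : ℤ) : ℝ) := by push_cast; linear_combination e
      exact_mod_cast this)
  rw [snp_adj h hG.s2 s, shp_eig h hG s (snp_eig h hG), ← one_smul ℂ G, Wl.pet2_smul, one_smul] at k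
  refine nn_of (c := (4 * N * p * (√(N : ℝ) * p) * (a p - p - 1) ^ 2 : ℝ))
    (zero_lt_real.2 (by positivity)) (nn_of (pet2_pos hG) (k.trans_eq ?_))
  have c := snp_co h hG
  push_cast at c ⊢
  rw [map_one]
  linear_combination pet2 N G G * -(4 * I * N * p) * (a p - p - 1) * c -
    pet2 N G G * 4 * N * p * (√(N : ℝ) * p) * (a p - p - 1) ^ 2 * (M0 fun n => a n) * I_sq

end Vale.Agent.P014P
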